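import Vale.Agent.P066.Colour.BlockGraph

/-!
Elementary positivity of the chromatic quasisymmetric functions of natural unit interval graphs
each of whose blocks has bandwidth at most two or is complete.
-/

namespace Vale.Agent.Results.P066.CliqueBlocks

open Vale.Agent.P066.Colour

/-- Let `h` be such that whenever `h i > i + 2`, all `j` strictly between `i` and `h i` have
`h j = h i`, and every `j < i` has `h j ≤ i` or `h j = h i`. Then in every number `N` of variables
every expansion of the chromatic quasisymmetric function as a polynomial in `e_1, …, e_N` over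
`ℤ[q]` has coefficients in `ℕ[q]`, and such an expansion exists. -/
theorem result (n : ℕ) (h : Fin n → Fin n) (hmono : Monotone h)
    (hblock : ∀ i : Fin n, (i : ℕ) + 2 < h i →
      (∀ j, i < j → j < h i → h j = h i) ∧ (∀ j, j < i → h j ≤ i ∨ h j = h i)) (N : ℕ) :
    (∃ P : MvPolynomial (Fin N) (Polynomial ℤ),
        MvPolynomial.aeval
          (fun i : Fin N => MvPolynomial.esymm (Fin N) (Polynomial ℤ) ((i : ℕ) + 1)) P =
        chi (MvPolynomial.C Polynomial.X) MvPolynomial.X h) ∧
    ∀ P : MvPolynomial (Fin N) (Polynomial ℤ),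
      MvPolynomial.aeval
          (fun i : Fin N => MvPolynomial.esymm (Fin N) (Polynomial ℤ) ((i : ℕ) + 1)) P =
        chi (MvPolynomial.C Polynomial.X) MvPolynomial.X h →
      ∀ (d : Fin N →₀ ℕ) (k : ℕ), 0 ≤ (P.coeff d).coeff k := by
  obtain ⟨P₀, hP₀, hpos⟩ := exists_nonneg_blocks h hmono hblock N
  refine ⟨⟨P₀, hP₀⟩, fun P hP => ?_⟩
  obtain rfl : P = P₀ := eSubst_injective N (hP.trans hP₀.symm)
  exact hpos

end Vale.Agent.Results.P066.CliqueBlocks
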